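import Mathlib

/-!
Finite dimensional convergence implies convergence in law, for spaces whose topology is induced by
countably many real functions.
-/

open MeasureTheory Filter Topology Set
open scoped BoundedContinuousFunction

namespace Vale.Agent.P156W

theorem tendsto_of_fdd {X ι : Type*} [TopologicalSpace X] [MeasurableSpace X] [BorelSpace X]
    {J : X → ℕ → ℝ} (hJ : IsInducing J) {l : Filter ι} [l.IsCountablyGenerated]
    {μs : ι → ProbabilityMeasure X} {μ : ProbabilityMeasure X}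
    (h : ∀ (m : ℕ) (Φ : (Fin m → ℝ) →ᵇ ℝ),
      Tendsto (fun i => ∫ x, Φ (fun j => J x j) ∂(μs i : Measure X)) l
        (𝓝 (∫ x, Φ (fun j => J x j) ∂(μ : Measure X)))) : Tendsto μs l (𝓝 μ) := by
  let π : (m : ℕ) → X → Fin m → ℝ := fun m x j => J x j
  have hπ : ∀ m, Continuous (π m) := fun m =>
    continuous_pi fun j => (continuous_apply (j : ℕ)).comp hJ.continuous
  have hm : ∀ m, Tendsto (fun i => (μs i).map (hπ m).measurable.aemeasurable) l
      (𝓝 (μ.map (hπ m).measurable.aemeasurable)) := fun m => by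
    refine ProbabilityMeasure.tendsto_iff_forall_integral_tendsto.2 fun Φ => ?_
    simp only [ProbabilityMeasure.toMeasure_map]
    simp only [integral_map (hπ m).measurable.aemeasurable Φ.continuous.aestronglyMeasurable]
    exact h m Φ
  refine tendsto_of_forall_isOpen_le_liminf' fun G hG => ?_
  let O : (m : ℕ) → Set (Fin m → ℝ) := fun m => {v | ∃ ε > 0, ∀ y, dist (π m y) v < ε → y ∈ G}
  have hO : ∀ m, IsOpen (O m) := fun m => by
    refine Metric.isOpen_iff.2 fun v ⟨ε, hε, hv⟩ => ⟨ε / 2, half_pos hε, fun w hw => ?_⟩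
    refine ⟨ε / 2, half_pos hε, fun y hy => hv y ?_⟩
    have := dist_triangle (π m y) w v
    rw [Metric.mem_ball] at hw
    linarith
  have sub : ∀ m, π m ⁻¹' O m ⊆ G := fun m x ⟨ε, hε, hx⟩ => hx x (by simpa using hε)
  have mono : Monotone fun m => π m ⁻¹' O m := fun m m' hmm x ⟨ε, hε, hx⟩ =>
    ⟨ε, hε, fun y hy => hx y ((dist_pi_lt_iff hε).2 fun j =>
      (dist_pi_lt_iff hε).1 hy (Fin.castLE hmm j))⟩
  have un : G = ⋃ m, π m ⁻¹' O m := by
    refine Subset.antisymm (fun x hx => ?_) (iUnion_subset sub)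
    obtain ⟨U, hU, rfl⟩ := hJ.isOpen_iff.1 hG
    obtain ⟨I, u, h1, h2⟩ := isOpen_pi_iff.1 hU (J x) hx
    have h3 : ∀ᶠ ε : ℝ in 𝓝[>] 0, ∀ k ∈ I, Metric.ball (J x k) ε ⊆ u k := by
      refine (eventually_all_finset I).2 fun k hk => ?_
      obtain ⟨ε, hε, h4⟩ := Metric.isOpen_iff.1 (h1 k hk).1 _ (h1 k hk).2
      filter_upwards [Ioo_mem_nhdsGT hε] with r hr using (Metric.ball_subset_ball hr.2.le).trans h4
    obtain ⟨ε, h4, hε⟩ := (h3.and self_mem_nhdsWithin).exists
    refine mem_iUnion.2 ⟨I.sup id + 1, ε, hε, fun y hy => h2 fun k hk => h4 k hk ?_⟩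
    exact (dist_pi_lt_iff hε).1 hy ⟨k, Nat.lt_succ_of_le (Finset.le_sup (f := id) hk)⟩
  conv_lhs => rw [un, mono.measure_iUnion]
  refine iSup_le fun m => ?_
  have h5 := ProbabilityMeasure.le_liminf_measure_open_of_tendsto (hm m) (hO m)
  simp only [ProbabilityMeasure.toMeasure_map,
    Measure.map_apply (hπ m).measurable (hO m).measurableSet] at h5
  exact h5.trans (liminf_le_liminf (Eventually.of_forall fun i => measure_mono (sub m)))

end Vale.Agent.P156W
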