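import Vale.Agent.P156W.Pub

/-!
The vague topology is induced by countably many test functions.
-/

open MeasureTheory Filter Topology Set
open scoped CompactlySupported

namespace Vale.Agent.P156W

/-- plateau functions -/
noncomputable def pl (R : ℕ) (x : ℝ) : ℝ := max 0 (min 1 (R + 1 - |x|))

theorem pl_cont (R : ℕ) : Continuous (pl R) := by
  unfold pl
  fun_prop

theorem pl_nonneg (R : ℕ) (x : ℝ) : 0 ≤ pl R x := le_max_left _ _

theorem pl_one {R : ℕ} {x : ℝ} (h : |x| ≤ R) : pl R x = 1 := by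
  unfold pl
  rw [min_eq_left (by linarith), max_eq_right zero_le_one]

theorem pl_zero {R : ℕ} {x : ℝ} (h : x ∉ Icc (-(R + 1 : ℝ)) (R + 1)) : pl R x = 0 := by
  rw [mem_Icc, ← abs_le, not_le] at h
  unfold pl
  exact max_eq_left ((min_le_right _ _).trans (by linarith))

theorem pl_cs (R : ℕ) : HasCompactSupport (pl R) :=
  HasCompactSupport.intro isCompact_Icc fun _ hx => pl_zero hx

theorem integrable_cc (μ : LF) {f : ℝ → ℝ} (hf : Continuous f) (hc : HasCompactSupport f) :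
    Integrable f μ.1 :=
  haveI := μ.2
  hf.integrable_of_hasCompactSupport hc

theorem cont_int {f : ℝ → ℝ} (hf : Continuous f) (hc : HasCompactSupport f) :
    Continuous fun μ : LF => ∫ x, f x ∂μ.1 :=
  (continuous_apply (⟨⟨f, hf⟩, hc⟩ : C_c(ℝ, ℝ))).comp (continuous_induced_dom
    (f := fun (μ : LF) (f : C_c(ℝ, ℝ)) => ∫ x, f x ∂μ.meas))

theorem approx {u : ℕ → C(ℝ, ℝ)} (hu : DenseRange u) (f : C(ℝ, ℝ)) (K : Set ℝ) (hK : IsCompact K)
    {ε : ℝ} (hε : 0 < ε) : ∃ k, ∀ x ∈ K, |f x - u k x| ≤ ε := by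
  have := isCompact_iff_compactSpace.1 hK
  have h1 : IsOpen ((fun g : C(ℝ, ℝ) => g.restrict K) ⁻¹' Metric.ball (f.restrict K) ε) :=
    Metric.isOpen_ball.preimage (ContinuousMap.continuous_restrict K)
  obtain ⟨k, hk⟩ := hu.exists_mem_open h1 ⟨f, Metric.mem_ball_self hε⟩
  refine ⟨k, fun x hx => ?_⟩
  have h2 := ContinuousMap.dist_apply_le_dist (f := f.restrict K) (g := (u k).restrict K) ⟨x, hx⟩
  rw [dist_comm (f.restrict K)] at h2
  exact h2.trans (le_of_lt hk)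

/-- a countable family of test functions induces the vague topology -/
theorem exists_ind : ∃ g : ℕ → ℝ → ℝ, (∀ k, Continuous (g k)) ∧ (∀ k, HasCompactSupport (g k)) ∧
    IsInducing fun (μ : LF) (k : ℕ) => ∫ x, g k x ∂μ.1 := by
  obtain ⟨u, hu⟩ := TopologicalSpace.exists_dense_seq C(ℝ, ℝ)
  obtain ⟨e, he⟩ := exists_surjective_nat (ℕ × Option ℕ)
  let g0 : ℕ × Option ℕ → ℝ → ℝ := fun p x => pl p.1 x * p.2.elim 1 fun k => u k x
  have c0 : ∀ p, Continuous (g0 p) := fun p => (pl_cont _).mul (by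
    rcases p with ⟨_, _ | k⟩
    · exact continuous_const
    · exact (u k).continuous)
  have s0 : ∀ p, HasCompactSupport (g0 p) := fun p => (pl_cs _).mul_right
  refine ⟨fun k => g0 (e k), fun k => c0 _, fun k => s0 _, ?_⟩
  refine isInducing_iff_nhds.2 fun μ => le_antisymm
    (continuous_pi fun k => cont_int (c0 _) (s0 _)).continuousAt.le_comap ?_
  set F := comap (fun (μ : LF) (k : ℕ) => ∫ x, g0 (e k) x ∂μ.1)
    (𝓝 fun k => ∫ x, g0 (e k) x ∂μ.1) with hF
  have t0 : ∀ p, Tendsto (fun ν : LF => ∫ x, g0 p x ∂ν.1) F (𝓝 (∫ x, g0 p x ∂μ.1)) := fun p => by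
    obtain ⟨k, rfl⟩ := he p
    exact tendsto_pi_nhds.1 (tendsto_comap (f := fun (μ : LF) (k : ℕ) => ∫ x, g0 (e k) x ∂μ.1)) k
  rw [nhds_induced, ← tendsto_iff_comap, tendsto_pi_nhds]
  intro f
  obtain ⟨R, hR⟩ : ∃ R : ℕ, ∀ x, f x = pl R x * f x := by
    obtain ⟨r, hr⟩ := f.hasCompactSupport.isCompact.isBounded.subset_closedBall 0
    obtain ⟨R, hR⟩ := exists_nat_ge r
    refine ⟨R, fun x => ?_⟩
    by_cases hx : x ∈ tsupport f
    · rw [pl_one (le_trans (by simpa using hr hx) hR), one_mul]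
    · rw [image_eq_zero_of_notMem_tsupport hx, mul_zero]
  have key : ∀ ε > 0, ∃ k, ∀ ν : LF,
      |∫ x, f x ∂ν.1 - ∫ x, g0 (R, some k) x ∂ν.1| ≤ ε * ∫ x, g0 (R, none) x ∂ν.1 := fun ε hε => by
    obtain ⟨k, hk⟩ := approx hu f.toContinuousMap _ (isCompact_Icc (a := -(R + 1 : ℝ)) (b := R + 1)) hε
    refine ⟨k, fun ν => ?_⟩
    rw [← integral_sub (integrable_cc ν (f := f) f.continuous f.hasCompactSupport)
      (integrable_cc ν (c0 _) (s0 _)), ← integral_const_mul, ← Real.norm_eq_abs]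
    refine norm_integral_le_of_norm_le ((integrable_cc ν (c0 _) (s0 _)).const_mul ε)
      (Eventually.of_forall fun x => ?_)
    show |f x - pl R x * u k x| ≤ ε * (pl R x * 1)
    rw [hR x, ← mul_sub, abs_mul, abs_of_nonneg (pl_nonneg R x), mul_one, mul_comm ε]
    by_cases hx : x ∈ Icc (-(R + 1 : ℝ)) (R + 1)
    · exact mul_le_mul_of_nonneg_left (hk x hx) (pl_nonneg R x)
    · rw [pl_zero hx, zero_mul, zero_mul]
  refine Metric.tendsto_nhds.2 fun δ hδ => ?_
  set b := ∫ x, g0 (R, none) x ∂μ.1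
  have hb : 0 ≤ b := integral_nonneg fun x => mul_nonneg (pl_nonneg R x) zero_le_one
  obtain ⟨k, hk⟩ := key (δ / (4 * (b + 1))) (by positivity)
  have e1 : δ / (4 * (b + 1)) * (b + 1) = δ / 4 := by field_simp
  have e2 : 0 < δ / (4 * (b + 1)) := by positivity
  filter_upwards [Metric.tendsto_nhds.1 (t0 (R, some k)) (δ / 4) (by positivity),
    Metric.tendsto_nhds.1 (t0 (R, none)) 1 one_pos] with ν h1 h2
  have h3 := hk ν
  have h4 := hk μ
  rw [Real.dist_eq, abs_lt] at h1 h2 ⊢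
  rw [abs_le] at h3 h4
  have h5 := mul_le_mul_of_nonneg_left (show ∫ x, g0 (R, none) x ∂ν.1 ≤ b + 1 by linarith) e2.le
  have h6 := mul_le_mul_of_nonneg_left (show b ≤ b + 1 by linarith) e2.le
  constructor <;> linarith

end Vale.Agent.P156W
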