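import Vale.Agent.P156W.Ind
import Vale.Agent.P156W.Fdd
import Vale.Agent.P156.H849.Fixed

/-!
Bulk universality as convergence in law for the vague topology.
-/

open MeasureTheory ProbabilityTheory Filter Topology Set
open scoped BoundedContinuousFunction

namespace Vale.Agent.P156W

open Vale.Agent.P156

theorem meas_int {f : ℝ → ℝ} (hf : Continuous f) (hc : HasCompactSupport f) {Ω : Type*}
    [MeasurableSpace Ω] {Ξ : Ω → LF} (h : Measurable fun ω => (Ξ ω).meas) :
    Measurable fun ω => ∫ x, f x ∂(Ξ ω).meas := by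
  simp only [fun ω => integral_eq_lintegral_pos_part_sub_lintegral_neg_part
    (integrable_cc (Ξ ω) hf hc)]
  exact ((Measure.measurable_lintegral hf.measurable.ennreal_ofReal).comp h).ennreal_toReal.sub
    ((Measure.measurable_lintegral hf.neg.measurable.ennreal_ofReal).comp h).ennreal_toReal

/-- random measures are Borel measurable for the vague topology -/
theorem meas_lf {Ω : Type*} [MeasurableSpace Ω] {Ξ : Ω → LF}
    (h : Measurable fun ω => (Ξ ω).meas) : Measurable Ξ := by
  obtain ⟨g, c, s, hJ⟩ := exists_ind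
  have e : vagueBorel = MeasurableSpace.comap (fun (μ : LF) (k : ℕ) => ∫ x, g k x ∂μ.meas)
      inferInstance := by
    rw [BorelSpace.measurable_eq (α := ℕ → ℝ), ← borel_comap, ← hJ.eq_induced]
    rfl
  rw [e, measurable_comap_iff]
  exact measurable_pi_lambda _ fun k => meas_int (c k) (s k) h

theorem outer : HasOuterApproxClosed LF := by
  obtain ⟨g, -, -, hJ⟩ := exists_ind
  have := hJ.pseudoMetrizableSpace
  infer_instance

/-- convergence of the laws of all linear statistics gives convergence in law -/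
theorem tid {ι : Type*} {Ω : ι → Type*} [∀ i, MeasurableSpace (Ω i)] {Ω' : Type*}
    [MeasurableSpace Ω'] {μ : (i : ι) → Measure (Ω i)} [∀ i, IsProbabilityMeasure (μ i)]
    {P : Measure Ω'} [IsProbabilityMeasure P] {X : (i : ι) → Ω i → LF} {Ξ : Ω' → LF}
    {l : Filter ι} [l.IsCountablyGenerated] (hX : ∀ i, Measurable (X i)) (hΞ : Measurable Ξ)
    (h : ∀ (m : ℕ) (f : Fin m → ℝ → ℝ), (∀ j, Continuous (f j)) →
      (∀ j, HasCompactSupport (f j)) → ∀ Φ : (Fin m → ℝ) → ℝ, Continuous Φ →
      (∃ C : ℝ, ∀ v, |Φ v| ≤ C) →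
      Tendsto (fun i => ∫ w, Φ (fun j => ∫ t, f j t ∂(X i w).meas) ∂μ i) l
        (𝓝 (∫ ω, Φ (fun j => ∫ t, f j t ∂(Ξ ω).meas) ∂P))) :
    TendstoInDistribution X l Ξ μ P := by
  obtain ⟨g, c, s, hJ⟩ := exists_ind
  refine ⟨fun i => (hX i).aemeasurable, hΞ.aemeasurable, tendsto_of_fdd hJ fun m Φ => ?_⟩
  have k : Continuous fun ν : LF => Φ fun j : Fin m => ∫ x, g j x ∂ν.meas :=
    Φ.continuous.comp (continuous_pi fun j => cont_int (c j) (s j))
  simp only [ProbabilityMeasure.coe_mk, integral_map hΞ.aemeasurable k.aestronglyMeasurable,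
    fun i => integral_map (μ := μ i) (hX i).aemeasurable k.aestronglyMeasurable]
  exact h m (fun j => g j) (fun j => c j) (fun j => s j) Φ Φ.continuous
    ⟨‖Φ‖, fun v => Φ.norm_coe_le_norm v⟩

theorem meas_goe (n : ℕ) : Measurable (goePt n) := by
  refine meas_lf ?_
  show Measurable fun w => ∑ i, Measure.dirac (H9.xO n w i)
  exact Finset.measurable_sum _ fun i _ => Measure.measurable_dirac.comp (H9.measurable_xO n i)

theorem int_graph (n d : ℕ) (F : SimpleGraph (Fin n) → ℝ) :
    ∫ x, F x.G ∂graphLaw n d = (∑ G ∈ regularGraphs n d, F G) / (regularGraphs n d).card := by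
  have : MeasurableSingletonClass (RG n d) := ⟨fun _ => trivial⟩
  have := Fintype.ofFinite (RG n d)
  let e : RG n d ≃ regularGraphs n d :=
    ⟨fun x => ⟨x.G, x.reg⟩, fun x => ⟨x.1, x.2⟩, fun _ => rfl, fun _ => rfl⟩
  rw [graphLaw, uniformOn, ProbabilityTheory.cond, integral_smul_measure, Measure.restrict_univ,
    integral_fintype .of_finite, Measure.count_univ,
    ← Finset.sum_coe_sort (regularGraphs n d), ← e.sum_comp,
    ← Fintype.card_coe, ← Fintype.card_congr e]
  simp [div_eq_inv_mul, e]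

theorem main :
    ∃ (Ω : Type) (_ : MeasurableSpace Ω) (P : Measure Ω) (_ : IsProbabilityMeasure P)
      (Ξ : Ω → LF),
      (∀ ω, ∃ (κ : Set ℕ) (z : κ → ℝ), (Ξ ω).meas = Measure.sum fun k => Measure.dirac (z k)) ∧
      TendstoInDistribution goePt atTop Ξ goeLaw P ∧
      (∀ (S : Measure LF) [IsProbabilityMeasure S],
        TendstoInDistribution goePt atTop id goeLaw S → S = P.map Ξ) ∧
      ∀ d : ℕ, 3 ≤ d → ∀ E : ℝ, |E| < 2 * Real.sqrt (d - 1) →
        TendstoInDistribution (fun n : Adm d => graphPt n d E) (comap Subtype.val atTop) Ξ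
          (fun n => graphLaw n d) P := by
  obtain ⟨P, Ξ0, h⟩ := H9.goeBulk_exists
  have := h.prob
  have := outer
  let Ξ : (ℕ → EReal) → LF := fun ω => ⟨Ξ0 ω, h.locFin ω⟩
  have hΞ : Measurable Ξ := meas_lf h.meas
  have h1 : TendstoInDistribution goePt atTop Ξ goeLaw P := tid meas_goe hΞ h.lim
  refine ⟨_, inferInstance, P, h.prob, Ξ, h.point, h1, fun S _ hS => ?_, fun d hd E hE => ?_⟩
  · simpa using congrArg ProbabilityMeasure.toMeasure (tendsto_nhds_unique hS.tendsto h1.tendsto)
  · refine tid (fun n => measurable_from_top) hΞ fun m f hf hc Φ hΦ hC => ?_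
    have e : ∀ n : Adm d, ∫ x, Φ (fun j => ∫ t, f j t ∂(graphPt n d E x).meas) ∂graphLaw n d =
        avgGraph n d E f Φ := fun n => int_graph n d fun G => Φ fun j => ∫ t, f j t ∂Xi n d E G
    simp only [e]
    refine (h.graph (H849.targetFixed hd) hE f hf hc Φ hΦ hC).comp
      (g := fun n => avgGraph n d E f Φ) (f := (Subtype.val : Adm d → ℕ)) ?_
    exact tendsto_inf.2 ⟨tendsto_comap, tendsto_principal.2 (Eventually.of_forall fun n => n.2)⟩

end Vale.Agent.P156W
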