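import Mathlib
import Vale.Agent.P156.H849.GoeDefs
import Vale.Agent.P156.H144.Reg

open MeasureTheory ProbabilityTheory
open scoped CompactlySupported

namespace Vale.Agent.P156W

open Vale.Agent.P156

/-- The locally finite Borel measures on the line. -/
structure LF where
  meas : Measure ℝ
  locFin : IsLocallyFiniteMeasure meas

/-- The vague topology: the coarsest topology for which the integrals of all continuous functions
with compact support are continuous. -/
noncomputable instance vague : TopologicalSpace LF :=
  .induced (fun (μ : LF) (f : C_c(ℝ, ℝ)) => ∫ x, f x ∂μ.meas) inferInstance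

/-- The Borel sets of the vague topology. -/
noncomputable instance vagueBorel : MeasurableSpace LF := borel LF

instance vagueBorelSpace : BorelSpace LF := ⟨rfl⟩

/-- The simple labelled `d`-regular graphs on `n` vertices. -/
structure RG (n d : ℕ) where
  G : SimpleGraph (Fin n)
  reg : G ∈ regularGraphs n d

/-- All sets of graphs are events. -/
instance rgEvents (n d : ℕ) : MeasurableSpace (RG n d) := ⊤

/-- The unfolded point measure of a graph at energy `E`, as a locally finite measure. -/
noncomputable def graphPt (n d : ℕ) (E : ℝ) (x : RG n d) : LF :=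
  ⟨Xi n d E x.G, by unfold Xi; infer_instance⟩

/-- The unfolded point measure of a normalized GOE matrix, as a locally finite measure. -/
noncomputable def goePt (n : ℕ) (w : Upper n → ℝ) : LF :=
  ⟨XiGOE n w, by unfold XiGOE; infer_instance⟩

/-- The sizes `n > d` with `nd` even. -/
abbrev Adm (d : ℕ) : Type := {n : ℕ // d < n ∧ Even (n * d)}

/-- The uniform law on the simple labelled `d`-regular graphs on `n` vertices. -/
noncomputable def graphLaw (n d : ℕ) : Measure (RG n d) := uniformOn Set.univ

instance rgFinite (n d : ℕ) : Finite (RG n d) :=
  Finite.of_injective RG.G fun ⟨_, _⟩ ⟨_, _⟩ h => by cases h; rfl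

instance graphLaw_prob (d : ℕ) (n : Adm d) : IsProbabilityMeasure (graphLaw n.1 d) := by
  obtain ⟨G, hG⟩ := H144.regularGraphs_nonempty n.2.1 n.2.2
  have : Nonempty (RG n.1 d) := ⟨⟨G, hG⟩⟩
  unfold graphLaw
  infer_instance

instance goeLaw_prob (n : ℕ) : IsProbabilityMeasure (goeLaw n) := by
  unfold goeLaw
  infer_instance

end Vale.Agent.P156W
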